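import Vale.Agent.P144S.K.KW

/-!
For unions of blocks the graph of the cells is the induced graph.
-/

namespace Vale.Agent.P144S.K

open Finset Vale.Agent.P144 Vale.Agent.P144.AL
open Vale.Agent.P144G (KC)

theorem bk {P : Finset Site} (hB : Blk P) {x y : Site} (h : x ∈ P) (e : x.1 / 2 = y.1 / 2)
    (e' : x.2 / 2 = y.2 / 2) : y ∈ P := hB x y e e' h

theorem ih_one {P : Finset Site} (hB : Blk P) {x : Site} (hx : x ∈ hor (Vx P)) : ih P x = 1 := by
  obtain ⟨i, j⟩ := x
  rw [mem_hor, mem_Vx, mem_Vx] at hx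
  simp only [add_sub_cancel_right] at hx
  refine if_pos ?_
  simp only
  rcases Int.emod_two_eq_zero_or_one i with e | e
  · rcases hx.2 with h | h | h | h
    · exact Or.inl (bk hB h (by simp only; omega) rfl)
    · exact Or.inl h
    · exact Or.inr (bk hB h (by simp only; omega) rfl)
    · exact Or.inr h
  · rcases hx.1 with h | h | h | h
    · exact Or.inl h
    · exact Or.inl (bk hB h (by simp only; omega) rfl)
    · exact Or.inr h
    · exact Or.inr (bk hB h (by simp only; omega) rfl)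

theorem iv_one {P : Finset Site} (hB : Blk P) {x : Site} (hx : x ∈ ver (Vx P)) : iv P x = 1 := by
  obtain ⟨i, j⟩ := x
  rw [mem_ver, mem_Vx, mem_Vx] at hx
  simp only [add_sub_cancel_right] at hx
  refine if_pos ?_
  simp only
  rcases Int.emod_two_eq_zero_or_one j with e | e
  · rcases hx.2 with h | h | h | h
    · exact Or.inl (bk hB h rfl (by simp only; omega))
    · exact Or.inr (bk hB h rfl (by simp only; omega))
    · exact Or.inl h
    · exact Or.inr h
  · rcases hx.1 with h | h | h | h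
    · exact Or.inl h
    · exact Or.inr h
    · exact Or.inl (bk hB h rfl (by simp only; omega))
    · exact Or.inr (bk hB h rfl (by simp only; omega))

/-- the centre of the block of a cell -/
def ctr (f : Site) : Site := (2 * (f.1 / 2) + 1, 2 * (f.2 / 2) + 1)

/-- a vertex whose cells lie in the blocks of two outer cells is outside -/
theorem out_of {P : Finset Site} (hB : Blk P) {f g v : Site} (hf : f ∉ P) (hg : g ∉ P)
    (h : ∀ a ∈ ({v.1, v.1 - 1} : Set ℤ), ∀ b ∈ ({v.2, v.2 - 1} : Set ℤ),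
      (a / 2 = f.1 / 2 ∧ b / 2 = f.2 / 2) ∨ (a / 2 = g.1 / 2 ∧ b / 2 = g.2 / 2)) :
    v ∉ Vx P := by
  have k : ∀ a ∈ ({v.1, v.1 - 1} : Set ℤ), ∀ b ∈ ({v.2, v.2 - 1} : Set ℤ),
      ((a, b) : Site) ∉ P := fun a ha b hb c => by
    rcases h a ha b hb with e | e
    · exact hf (hB _ _ e.1 e.2 c)
    · exact hg (hB _ _ e.1 e.2 c)
  rw [mem_Vx]
  rintro (c | c | c | c) <;> exact k _ (by simp) _ (by simp) c

theorem ctr_out {P : Finset Site} (hB : Blk P) {f : Site} (hf : f ∉ P) : ctr f ∉ Vx P :=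
  out_of hB hf hf (by
    simp only [ctr, Set.mem_insert_iff, Set.mem_singleton_iff]
    omega)

theorem kc {P : Finset Site} (hB : Blk P) (hN : NC P) : KC (Vx P) := by
  intro v hv w hw
  have hv' : v ∉ P := fun c => hv (mem_Vx.2 (Or.inl c))
  have hw' : w ∉ P := fun c => hw (mem_Vx.2 (Or.inl c))
  have key : ∀ g, Relation.ReflTransGen
      (fun x y : Site => y ∉ P ∧ |x.1 - y.1| + |x.2 - y.2| = 1) v g → g ∉ P ∧ Relation.ReflTransGen
      (fun x y : Site => y ∉ Vx P ∧ |x.1 - y.1| ≤ 1 ∧ |x.2 - y.2| ≤ 1) v (ctr g) := by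
    intro g hg
    induction hg with
    | refl =>
      refine ⟨hv', .single ⟨ctr_out hB hv', ?_, ?_⟩⟩ <;> simp only [ctr, abs_le] <;> omega
    | @tail f g _ st ih =>
      have s2 := st.2
      have cs : (g.1 = f.1 + 1 ∧ g.2 = f.2) ∨ (g.1 = f.1 - 1 ∧ g.2 = f.2) ∨
          (g.1 = f.1 ∧ g.2 = f.2 + 1) ∨ (g.1 = f.1 ∧ g.2 = f.2 - 1) := by
        rcases abs_cases (f.1 - g.1) with e | e <;> rcases abs_cases (f.2 - g.2) with e' | e' <;>
          omega
      refine ⟨st.1, (ih.2.tail (c := (f.1 / 2 + g.1 / 2 + 1, f.2 / 2 + g.2 / 2 + 1))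
        ⟨out_of hB ih.1 st.1 ?_, ?_, ?_⟩).tail ⟨ctr_out hB st.1, ?_, ?_⟩⟩
      · simp only [Set.mem_insert_iff, Set.mem_singleton_iff]
        omega
      all_goals
        simp only [ctr, abs_le]
        omega
  refine (key w (hN v hv' w hw')).2.tail ⟨hw, ?_, ?_⟩ <;> simp only [ctr, abs_le] <;> omega

/-- For unions of blocks the graph is the induced one. -/
theorem blk : SBlk := fun _ hB =>
  ⟨fun _ A => NG_congr (fun _ hx => by rw [ih_one hB hx, one_mul]) (fun _ hx => iv_one hB hx) A,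
    kc hB⟩

end Vale.Agent.P144S.K
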