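import Vale.Agent.P144S.Defs
import Vale.Agent.P144Z.St.Plus

/-!
Kramers-Wannier duality for the graph of the cells of `P`.
-/

namespace Vale.Agent.P144S.K

open Finset Vale.Agent.P144 Vale.Agent.P144.AL Vale.Agent.P144Z.St
open Vale.Agent.P144.H436 (Zf eP eQ EE EE_mono NG_eq_Zf prod_dep sum_powerset_inter)

theorem exists_fb (P : Finset Site) : ∃ M : ℕ, P ⊆ fb M := by
  refine ⟨P.sup (fun x => x.1.natAbs + x.2.natAbs) + 1, fun x hx => ?_⟩
  have := Finset.le_sup (f := fun x : Site => x.1.natAbs + x.2.natAbs) hx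
  rw [mem_fb]
  omega

theorem mem_Vx {P : Finset Site} {v : Site} : v ∈ Vx P ↔ v ∈ P ∨ ((v.1 - 1, v.2) : Site) ∈ P ∨
    ((v.1, v.2 - 1) : Site) ∈ P ∨ ((v.1 - 1, v.2 - 1) : Site) ∈ P := by
  unfold Vx
  rw [mem_biUnion]
  constructor
  · rintro ⟨f, hf, h⟩
    rcases mem_cnr'.1 h with rfl | rfl | rfl | rfl <;> simp only [hf, true_or, or_true]
  · rintro (h | h | h | h) <;> exact ⟨_, h, mem_cnr'.2 (by simp)⟩

theorem Vx_sub {P : Finset Site} {M : ℕ} (hP : P ⊆ fb M) : Vx P ⊆ box M := by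
  intro v hv
  rw [P144.mem_box]
  rcases mem_Vx.1 hv with h | h | h | h <;> have := mem_fb.1 (hP h) <;>
    (try simp only at this) <;> omega

/-- the indicator of the sides of cells -/
noncomputable def sd (P : Finset Site) (e : Site ⊕ Site) : ℝ :=
  if fP e ∈ P ∨ fQ e ∈ P then 1 else 0

theorem side_mem {P : Finset Site} {e : Site ⊕ Site} (h : fP e ∈ P ∨ fQ e ∈ P) :
    e ∈ EE (Vx P) := by
  unfold EE
  rcases e with x | x
  · rw [inl_mem_disjSum, mem_hor, mem_Vx, mem_Vx]
    simp only [fP, fQ, Sum.elim_inl, id, add_sub_cancel_right, Prod.mk.eta] at h ⊢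
    tauto
  · rw [inr_mem_disjSum, mem_ver, mem_Vx, mem_Vx]
    simp only [fP, fQ, Sum.elim_inr, id, add_sub_cancel_right, Prod.mk.eta] at h ⊢
    tauto

theorem QQ_box {P : Finset Site} {M : ℕ} (hP : P ⊆ fb M) (R : Multiset Site) :
    Zf (box M) eP eQ (EE (box M)) 0
      (fun e => tc * (sd P e * Sum.elim (cutS R) (1 : Site → ℝ) e)) =
      2 ^ (box M \ Vx P).card * QQ P R 0 := by
  have e1 : (fun e => tc * Sum.elim (fun x => ih P x * cutS R x) (iv P) e) =
      fun e => tc * (sd P e * Sum.elim (cutS R) (1 : Site → ℝ) e) := by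
    funext e
    rcases e with x | x
    · rfl
    · simp only [Sum.elim_inr, Pi.one_apply, mul_one]
      rfl
  unfold QQ
  rw [NG_eq_Zf, e1]
  unfold Zf
  rw [← sum_powerset_inter (Vx_sub hP) fun T => by
    rw [spn_zero, spn_zero, prod_dep Subset.rfl _ T]]
  refine sum_congr rfl fun T _ => ?_
  congr 1
  refine (prod_subset (EE_mono (Vx_sub hP)) fun e _ he => ?_).symm
  have : sd P e = 0 := if_neg fun h => he (side_mem h)
  simp [this]

theorem sub_of_sides {P S : Finset Site} {M : ℕ} (hN : NC P) (hP : P ⊆ fb M) (hS : S ⊆ fb M)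
    (h : ∀ e ∈ bd M S, fP e ∈ P ∨ fQ e ∈ P) : S ⊆ P := by
  intro v hv
  by_contra hv'
  have hw : (((M : ℤ), (0 : ℤ)) : Site) ∉ fb M := by rw [mem_fb]; simp only; omega
  have key : ∀ w, Relation.ReflTransGen
      (fun x y : Site => y ∉ P ∧ |x.1 - y.1| + |x.2 - y.2| = 1) v w → w ∈ S ∧ w ∉ P := by
    intro w hw
    induction hw with
    | refl => exact ⟨hv, hv'⟩
    | @tail x y _ st ih =>
      refine ⟨?_, st.1⟩
      by_contra hy
      obtain ⟨a, b⟩ := x
      obtain ⟨c, d⟩ := y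
      have hx := mem_fb.1 (hS ih.1)
      have s2 := st.2
      simp only at hx s2
      have cs : (c = a + 1 ∧ d = b) ∨ (c = a - 1 ∧ d = b) ∨ (c = a ∧ d = b + 1) ∨
          (c = a ∧ d = b - 1) := by
        rcases abs_cases (a - c) with e | e <;> rcases abs_cases (b - d) with e' | e' <;> omega
      have i1 := ih.1
      have i2 := ih.2
      have s1 := st.1
      rcases cs with ⟨rfl, rfl⟩ | ⟨rfl, rfl⟩ | ⟨rfl, rfl⟩ | ⟨rfl, rfl⟩
      · have := h (Sum.inr (a + 1, d)) (mem_bd.2 ⟨inr_mem.2 (by simp only; omega), by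
          simp [fP, fQ, i1, hy]⟩)
        simp [fP, fQ, i2, s1] at this
      · have := h (Sum.inr (a, d)) (mem_bd.2 ⟨inr_mem.2 (by simp only; omega), by
          simp [fP, fQ, i1, hy]⟩)
        simp [fP, fQ, i2, s1] at this
      · have := h (Sum.inl (c, b + 1)) (mem_bd.2 ⟨inl_mem.2 (by simp only; omega), by
          simp [fP, fQ, i1, hy]⟩)
        simp [fP, fQ, i2, s1] at this
      · have := h (Sum.inl (c, b)) (mem_bd.2 ⟨inl_mem.2 (by simp only; omega), by
          simp [fP, fQ, i1, hy]⟩)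
        simp [fP, fQ, i2, s1] at this
  exact hw (hS (key _ (hN v hv' _ fun c => hw (hP c))).1)

/-- the high-temperature expansion as a sum over sets of cells -/
theorem QQ_faces {P : Finset Site} {M : ℕ} (hN : NC P) (hP : P ⊆ fb M) (R : Multiset Site) :
    2 ^ (box M \ Vx P).card * QQ P R 0 =
      2 ^ (box M).card * ∑ S ∈ P.powerset, (R.map (ms S)).prod * tc ^ (bd M S).card := by
  rw [← QQ_box hP, Zf_box]
  congr 1
  rw [← sum_subset (powerset_mono.2 hP)]
  · refine sum_congr rfl fun S hS => ?_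
    have hS' := mem_powerset.1 hS
    rw [prod_mul_distrib, prod_mul_distrib, prod_cut (hS'.trans hP), prod_const,
      prod_eq_one (f := sd P), one_mul, mul_comm]
    · rfl
    · intro e he
      have := (mem_bd.1 he).2
      refine if_pos ?_
      by_cases c : fP e ∈ S
      · exact Or.inl (hS' c)
      · exact Or.inr (hS' (by tauto))
  · intro S hS hS'
    by_contra c
    refine hS' (mem_powerset.2 (sub_of_sides hN hP (mem_powerset.1 hS) fun e he => ?_))
    by_contra c'
    exact c (prod_eq_zero he (by rw [sd, if_neg c']; simp))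

open Classical in
theorem weight {J : ℝ} (hJ : 0 < J) {P : Finset Site} {M : ℕ} (hP : P ⊆ fb M) : ∃ C > 0, ∀ S ⊆ P,
    Real.exp (-(Kc / J) * energy J 0 (fun _ => 0) (fun A => (A ∩ P).Nonempty)
      (ext P bcp (P \ S))) = C * tc ^ (bd M S).card := by
  set W := box (M + 3) with hW
  set c : ℝ := ∑ u ∈ W, ∑ v ∈ W, if u ∈ P ∨ v ∈ P then 0 else cpl J 0 u v with hc
  refine ⟨Real.exp (Kc * ((hor W).card + (ver W).card) - Kc / J / 2 * c), Real.exp_pos _,
    fun S hS => ?_⟩
  have win : Window P W := ⟨hP.trans (window_fb M).1, fun u hu => (window_fb M).2 u (hP hu)⟩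
  rw [energy_pairs (Phi_pair0 J) (fun _ h => Phi_supp0 h) win
    (Q := fun _ => True) (fun u v => inter_pair u v)]
  have h1 : ∑ u ∈ W, ∑ v ∈ W, (if (u ∈ P ∨ v ∈ P) ∧ True ∧ True then
      cpl J 0 u v * (sp (ext P bcp (P \ S) u) * sp (ext P bcp (P \ S) v)) else 0)
      = ∑ u ∈ W, ∑ v ∈ W, cpl J 0 u v * (ms S u * ms S v) - c := by
    rw [hc, ← sum_sub_distrib]
    refine sum_congr rfl fun u _ => ?_
    rw [← sum_sub_distrib]
    refine sum_congr rfl fun v _ => ?_
    rw [sp_ext_sdiff hS, sp_ext_sdiff hS]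
    by_cases h : u ∈ P ∨ v ∈ P
    · simp [h]
    · have hu : u ∉ S := fun h' => h (Or.inl (hS h'))
      have hv : v ∉ S := fun h' => h (Or.inr (hS h'))
      simp [h, ms, hu, hv]
  suffices h5 : Real.exp (-(Kc / J) * -(1 / 2 *
      (∑ u ∈ W, ∑ v ∈ W, cpl J 0 u v * (ms S u * ms S v) - c)))
      = Real.exp (Kc * ((hor W).card + (ver W).card) - Kc / J / 2 * c) * tc ^ (bd M S).card by
    rw [← h5, ← h1]
    congr!
  rw [edge_sum, card_bd (hS.trans hP), ← exp_two_Kc, ← Real.exp_nat_mul, ← Real.exp_add]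
  congr 1
  field_simp
  ring

theorem sP_faces {J : ℝ} (hJ : 0 < J) {P : Finset Site} {M : ℕ} (hP : P ⊆ fb M)
    (R : Multiset Site) : sP J P R =
      (∑ S ∈ P.powerset, (R.map (ms S)).prod * tc ^ (bd M S).card) /
        ∑ S ∈ P.powerset, tc ^ (bd M S).card := by
  obtain ⟨C, hC, h⟩ := weight hJ hP
  rw [← mul_div_mul_left (∑ S ∈ P.powerset, _) _ hC.ne', mul_sum, mul_sum]
  have e : ∀ g : Finset Site → ℝ, ∑ T ∈ P.powerset, g T = ∑ S ∈ P.powerset, g (P \ S) := by
    intro g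
    refine sum_nbij' (fun T => P \ T) (fun T => P \ T) (fun T _ => by simp)
      (fun T _ => by simp) (fun T hT => ?_) (fun T hT => ?_) (fun T hT => ?_)
    · exact Finset.sdiff_sdiff_eq_self (mem_powerset.1 hT)
    · exact Finset.sdiff_sdiff_eq_self (mem_powerset.1 hT)
    · rw [Finset.sdiff_sdiff_eq_self (mem_powerset.1 hT)]
  change gibbs J 0 (fun _ => 0) (Kc / J) (some bcp) P
    (fun σ => (R.map fun x => sp (σ x)).prod) = _
  simp only [gibbs, P144.expect]
  rw [e, e fun T => Real.exp _]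
  congr 1
  · refine sum_congr rfl fun S hS => ?_
    rw [h S (mem_powerset.1 hS)]
    simp only [sp_ext_sdiff (mem_powerset.1 hS)]
    ring
  · exact sum_congr rfl fun S hS => h S (mem_powerset.1 hS)

/-- Kramers-Wannier duality. -/
theorem kw : SKW := by
  intro J hJ P hN R
  obtain ⟨M, hP⟩ := exists_fb P
  rw [sP_faces hJ hP, MM, ← mul_div_mul_left (QQ P R 0) _
    (show (2 : ℝ) ^ (box M \ Vx P).card ≠ 0 by positivity), QQ_faces hN hP, QQ_faces hN hP,
    mul_div_mul_left _ _ (by positivity)]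
  simp

end Vale.Agent.P144S.K
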