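import Vale.Agent.P144S.K.KW
import Vale.Agent.P144.H436.Norm

/-!
Lattice inequalities for the plus state: truncation and a lower bound by reflection.
-/

namespace Vale.Agent.P144S.K

open Finset Vale.Agent.P144 Vale.Agent.P144.AL Vale.Agent.P144Z.St
open Vale.Agent.P144.H436 hiding MM

/-- The truncated two-point function decreases with the field. -/
theorem cov_le {ι : Type*} [Fintype ι] [DecidableEq ι] {K : ι → ι → ℝ} {w : ι → ℝ}
    (hK : ∀ i j, 0 ≤ K i j) (hw : ∀ i, 0 ≤ w i) (i j : ι) :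
    cov K w (sg i) (sg j) ≤ cov K (fun _ => 0) (sg i) (sg j) := by
  have hd : ∀ t : ℝ, HasDerivAt (fun t : ℝ => cov K (fun k => 0 + t * w k) (sg i) (sg j))
      (∑ k, w k * (cov K (fun k => 0 + t * w k) (fun s => sg i s * sg j s) (sg k) -
        (cov K (fun k => 0 + t * w k) (sg i) (sg k) * ev K (fun k => 0 + t * w k) (sg j) +
          ev K (fun k => 0 + t * w k) (sg i) * cov K (fun k => 0 + t * w k) (sg j) (sg k)))) t := by
    intro t
    refine ((hasDerivAt_ev K (fun _ => 0) w (fun s => sg i s * sg j s) t).fun_sub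
      ((hasDerivAt_ev K (fun _ => 0) w (sg i) t).fun_mul
        (hasDerivAt_ev K (fun _ => 0) w (sg j) t))).congr_deriv ?_
    simp only [cov_linear, sum_mul, mul_sum, ← sum_add_distrib, ← sum_sub_distrib]
    exact sum_congr rfl fun k _ => by ring
  have hm : AntitoneOn (fun t : ℝ => cov K (fun k => 0 + t * w k) (sg i) (sg j))
      (Set.Icc (0 : ℝ) 1) := by
    refine antitoneOn_of_deriv_nonpos (convex_Icc 0 1)
      (fun t _ => (hd t).continuousAt.continuousWithinAt)
      (fun t _ => (hd t).differentiableAt.differentiableWithinAt) fun t ht => ?_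
    rw [(hd t).deriv]
    refine sum_nonpos fun k _ => mul_nonpos_of_nonneg_of_nonpos (hw k) ?_
    have := ghs hK (h := fun k => 0 + t * w k)
      (fun k => by have := mul_nonneg (interior_subset ht).1 (hw k); linarith) i j k
    unfold cov sg
    linarith
  have := hm (Set.left_mem_Icc.2 zero_le_one) (Set.right_mem_Icc.2 zero_le_one) zero_le_one
  simpa using this

/-- The two-point function of the plus state. -/
noncomputable def two (J : ℝ) (P : Finset Site) (x y : Site) : ℝ :=
  gibbs J 0 Vk (Kc / J) (some bcp) P fun σ => sp (σ x) * sp (σ y)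

variable {J : ℝ} (hJ : 0 < J) {P : Finset Site}

include hJ

theorem two_le {x y : Site} (hx : x ∈ P) (hy : y ∈ P) (hxy : x ≠ y) :
    two J P x y ≤ mag J P x * mag J P y + fcor J P {x, y} := by
  have hK := KK_nonneg (div_pos kc_pos hJ).le hJ.le le_rfl P
  have h1 := cov_le hK (w := fun i : P => pf (Kc / J) J 0 P (win P) i)
    (fun i => pf_nonneg hJ _ _ _) ⟨x, hx⟩ ⟨y, hy⟩
  have h2 := mul_nonneg (gks1 hK (h := fun _ => 0) (fun _ => le_rfl) (Gin.spin (⟨x, hx⟩ : P)))
    (gks1 hK (h := fun _ => 0) (fun _ => le_rfl) (Gin.spin (⟨y, hy⟩ : P)))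
  unfold two mag
  rw [H436.fcor_eq, cor_pair _ _ _ _ hxy, gibbs_plus (window_win P), gibbs_plus (window_win P),
    gibbs_plus (window_win P)]
  simp only [exs_mem hx, exs_mem hy]
  unfold cov sg at h1
  linarith

/-- The lower bound by reflection. -/
theorem Dg_le {y : Site} (hy : y ∈ P) {k : ℕ} (hk : 1 ≤ k)
    (h : ∀ u ∈ P, u.1 + u.2 < y.1 + y.2 + k) : Dg k ≤ mag J P y ^ 2 := by
  let f : Site ≃ Site := Equiv.subLeft (y + (y + ((k : ℤ), (k : ℤ))))
  have f1 : ∀ u, (f u).1 = y.1 + (y.1 + k) - u.1 := fun u => rfl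
  have f2 : ∀ u, (f u).2 = y.2 + (y.2 + k) - u.2 := fun u => rfl
  have hf : ∀ u v, dsq (f u) (f v) = dsq u v := fun u v => by
    simp only [dsq, f1, f2]; ring
  have fy : f y = y + ((k : ℤ), (k : ℤ)) := by simp [f]
  have far : ∀ u ∈ P, ∀ v ∈ P.map f.toEmbedding, u.1 + u.2 + 2 ≤ v.1 + v.2 := by
    intro u hu v hv
    obtain ⟨v', hv', rfl⟩ := mem_map.1 hv
    have := h u hu
    have := h v' hv'
    simp only [Equiv.coe_toEmbedding, f1, f2]
    omega
  have my : f y ∈ P.map f.toEmbedding := mem_map_of_mem _ hy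
  have ne : y ≠ f y := fun e => by have := far y hy _ my; rw [← e] at this; omega
  obtain ⟨M, hM⟩ := exists_fb (P ∪ P.map f.toEmbedding)
  have h1 := MM_ge (box M) y hk
  have h2 := gibbs_le_plus (div_pos kc_pos hJ).le hJ.le (le_refl (0 : ℝ)) (some bcp) hM
    (A := {y, f y}) (insert_subset (mem_union_left _ hy)
      (singleton_subset_iff.2 (mem_union_right _ my)))
  rw [plus_prod (disjoint_left.2 fun u hu hu' => by have := far u hu u hu'; omega)
    (fun u hu v hv => by
      have := far u hu v hv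
      have e : dsq u v ≠ 1 := by
        unfold dsq
        intro e
        nlinarith [sq_nonneg ((u.1 - v.1) - (u.2 - v.2)), sq_nonneg ((u.1 - v.1) + (u.2 - v.2) + 2)]
      simp [cpl, e]) hy my, plus_map f hf] at h2
  simp only [prod_pair ne] at h2
  rw [← plus_two hJ, ← gibbs_V0 J _ Vk, ← fy] at h1
  rw [sq]
  exact h1.trans h2

end Vale.Agent.P144S.K
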