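import Vale.Agent.P144S.K.Blk
import Vale.Agent.P144S.K.Lat
import Vale.Agent.P144.H436.Norm4

/-!
The normalisation of one spin.
-/

namespace Vale.Agent.P144S.K

open Finset Filter Topology Metric Vale.Agent.P144 Vale.Agent.P144Q Vale.Agent.P144Z.St
open Vale.Agent.P144.H170 (pt)
open Vale.Agent.P144.AL (flt idt)

theorem fl_sum {a : ℝ} (ha : 0 < a) (z : ℂ) :
    z.re + z.im - 2 * a ≤ a * (((fl a z).1 + (fl a z).2 : ℤ) : ℝ) ∧
      a * (((fl a z).1 + (fl a z).2 : ℤ) : ℝ) ≤ z.re + z.im := by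
  have k : ∀ t : ℝ, t - a ≤ a * ⌊t / a⌋ ∧ a * ⌊t / a⌋ ≤ t := fun t => by
    have h1 := Int.floor_le (t / a)
    have h2 := (Int.lt_floor_add_one (t / a)).le
    rw [le_div_iff₀ ha] at h1
    rw [div_le_iff₀ ha] at h2
    constructor <;> linarith
  have h1 := k z.re
  have h2 := k z.im
  simp only [fl]
  push_cast
  constructor <;> linarith

/-- points close to an extreme point in the diagonal direction -/
theorem geo {D : Set ℂ} (ho : IsOpen D) (hD : D ⊆ ball 0 (1 / 4)) {z : ℂ} (hz : z ∈ D) :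
    ∃ ρ > (0 : ℝ), ∀ d > (0 : ℝ), ∃ y ∈ D, z.re + z.im + ρ - d ≤ y.re + y.im ∧
      ∀ w ∈ D, w.re + w.im ≤ y.re + y.im + d := by
  obtain ⟨ρ, hρ, hb⟩ := nhds_basis_closedBall.mem_iff.1 (ho.mem_nhds hz)
  have bd : BddAbove ((fun w : ℂ => w.re + w.im) '' D) := ⟨1, by
    rintro _ ⟨w, hw, rfl⟩
    have h1 : ‖w‖ < 1 / 4 := by simpa using hD hw
    have h2 := Complex.re_le_norm w
    have h3 := Complex.im_le_norm w
    simp only
    linarith⟩
  refine ⟨ρ, hρ, fun d hd => ?_⟩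
  obtain ⟨_, ⟨y, hy, rfl⟩, h⟩ := exists_lt_of_lt_csSup (s := (fun w : ℂ => w.re + w.im) '' D)
    ⟨_, z, hz, rfl⟩ (sub_lt_self _ hd)
  have le : ∀ w ∈ D, w.re + w.im ≤ y.re + y.im + d := fun w hw => by
    have := le_csSup bd ⟨w, hw, rfl⟩
    simp only at h this
    linarith
  refine ⟨y, hy, ?_, le⟩
  have := le (z + ρ) (hb (by simp [abs_of_pos hρ]))
  simp only [Complex.add_re, Complex.ofReal_re, Complex.add_im, Complex.ofReal_im] at this
  linarith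

variable {J : ℝ} (hJ : 0 < J) {D : Set ℂ} {P : ℝ → Finset Site}

include hJ

/-- the magnetisation is large near the extreme point -/
theorem big (hP : Fam0 D P) {A : ℝ} (hA0 : 0 < A)
    (hA : Tendsto (fun n : ℕ => (n : ℝ) ^ (1 / 4 : ℝ) * Dg n) atTop (𝓝 A)) {y : ℂ} (hy : y ∈ D)
    {d : ℝ} (hd : 0 < d) (h : ∀ w ∈ D, w.re + w.im ≤ y.re + y.im + d) :
    ∀ᶠ a in 𝓝[>] (0 : ℝ), A / 2 * (7 * d) ^ (-(1 / 4) : ℝ) ≤
      a ^ (-(1 / 4) : ℝ) * mag J (P a) (fl a y) ^ 2 := by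
  have hk : Tendsto (fun a : ℝ => ⌈6 * d / a⌉₊) (𝓝[>] 0) atTop := by
    exact tendsto_nat_ceil_atTop.comp (f := fun a : ℝ => 6 * d * a⁻¹)
      (tendsto_inv_nhdsGT_zero.const_mul_atTop (by positivity))
  filter_upwards [(hA.comp hk).eventually_const_lt (half_lt_self hA0), hk.eventually_ge_atTop 1,
    hP.sub d hd, hP.mem idt hy (flt y), Ioo_mem_nhdsGT hd] with a h1 h2 h3 h4 h5
  have ha : 0 < a := h5.1
  set k := ⌈6 * d / a⌉₊ with hkd
  have k0 : (0 : ℝ) < k := by exact_mod_cast h2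
  have k1 : 6 * d ≤ a * k := by
    have := Nat.le_ceil (6 * d / a)
    rw [div_le_iff₀ ha] at this
    linarith
  have k2 : a * k ≤ 7 * d := by
    have := (Nat.ceil_lt_add_one (show 0 ≤ 6 * d / a by positivity)).le
    rw [← sub_le_iff_le_add, le_div_iff₀ ha] at this
    linarith [h5.2]
  have h6 := Dg_le hJ h4 h2 fun u hu => by
    obtain ⟨w, hw, e⟩ := h3 u hu
    have e1 := (Complex.re_le_norm _).trans e
    have e2 := (Complex.im_le_norm _).trans e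
    simp only [pt, Complex.sub_re, Complex.sub_im] at e1 e2
    have e3 := h w hw
    have e4 := (fl_sum ha y).1
    have e5 : a * ((u.1 + u.2 : ℤ) : ℝ) < a * (((fl a y).1 + (fl a y).2 + k : ℤ) : ℝ) := by
      push_cast at e4 ⊢
      linarith [h5.2]
    exact_mod_cast lt_of_mul_lt_mul_left e5 ha.le
  have h7 : (7 * d) ^ (-(1 / 4) : ℝ) ≤ (a * k) ^ (-(1 / 4) : ℝ) :=
    Real.rpow_le_rpow_of_nonpos (by positivity) k2 (by norm_num)
  have h8 : (k : ℝ) ^ (1 / 4 : ℝ) * (k : ℝ) ^ (-(1 / 4) : ℝ) = 1 := by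
    rw [← Real.rpow_add k0]; norm_num
  rw [Real.mul_rpow ha.le k0.le] at h7
  simp only [Function.comp] at h1
  calc A / 2 * (7 * d) ^ (-(1 / 4) : ℝ)
      ≤ ((k : ℝ) ^ (1 / 4 : ℝ) * Dg k) * (a ^ (-(1 / 4) : ℝ) * (k : ℝ) ^ (-(1 / 4) : ℝ)) :=
        mul_le_mul h1.le h7 (by positivity) (by linarith)
    _ = a ^ (-(1 / 4) : ℝ) * Dg k := by linear_combination (a ^ (-(1 / 4) : ℝ) * Dg k) * h8
    _ ≤ _ := mul_le_mul_of_nonneg_left h6 (by positivity)

/-- the truncated correlation is bounded -/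
theorem trunc (hP : Fam0 D P) {ρ : ℝ} (hρ : 0 < ρ) : ∃ C : ℝ, ∀ z ∈ D, ∀ y ∈ D,
    z.re + z.im + ρ ≤ y.re + y.im → ∀ᶠ a in 𝓝[>] (0 : ℝ),
      a ^ (-(1 / 4) : ℝ) * two J (P a) (fl a z) (fl a y) ≤
        a ^ (-(1 / 4) : ℝ) * (mag J (P a) (fl a z) * mag J (P a) (fl a y)) + C := by
  obtain ⟨C, hC, h⟩ := H436.fcor_two hJ (fun _ hk => fcor_box_diag hJ hk) Dg_asymp
  refine ⟨C * (ρ / 2) ^ (-(1 / 4) : ℝ), fun z hz y hy e => ?_⟩
  filter_upwards [hP.mem idt hz (flt z), hP.mem idt hy (flt y),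
    Ioo_mem_nhdsGT (show 0 < ρ / 6 by positivity)] with a h1 h2 h3
  have ha : 0 < a := h3.1
  set L := ⌈ρ / 2 / a⌉₊ with hL
  have k1 : ρ / 2 ≤ a * L := by
    have := Nat.le_ceil (ρ / 2 / a)
    rw [div_le_iff₀ ha] at this
    linarith
  have k2 : a * L ≤ ρ / 2 + a := by
    have := (Nat.ceil_lt_add_one (show 0 ≤ ρ / 2 / a by positivity)).le
    rw [← sub_le_iff_le_add, le_div_iff₀ ha] at this
    linarith
  have k3 : 2 ≤ L := by
    have : a * (2 : ℕ) ≤ a * L := by push_cast; linarith [h3.2]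
    exact_mod_cast le_of_mul_le_mul_left this ha
  have k4 : (L : ℤ) + ((fl a z).1 + (fl a z).2) ≤ (fl a y).1 + (fl a y).2 := by
    have e1 := (fl_sum ha y).1
    have e2 := (fl_sum ha z).2
    have : a * (((L : ℤ) + ((fl a z).1 + (fl a z).2) : ℤ) : ℝ) ≤
        a * (((fl a y).1 + (fl a y).2 : ℤ) : ℝ) := by
      push_cast at e1 e2 ⊢
      linarith [h3.2]
    exact_mod_cast le_of_mul_le_mul_left this ha
  have ne : fl a z ≠ fl a y := fun c => by rw [c] at k4; omega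
  have h4 := h (P a) L _ _ h1 h2 k3 (by
    have := neg_le_abs ((fl a z).1 - (fl a y).1)
    have := neg_le_abs ((fl a z).2 - (fl a y).2)
    omega)
  have h5 : (a * L) ^ (-(1 / 4) : ℝ) ≤ (ρ / 2) ^ (-(1 / 4) : ℝ) :=
    Real.rpow_le_rpow_of_nonpos (by positivity) k1 (by norm_num)
  rw [Real.mul_rpow ha.le (Nat.cast_nonneg _)] at h5
  have p : 0 ≤ a ^ (-(1 / 4) : ℝ) := by positivity
  have h6 := mul_le_mul_of_nonneg_left (two_le hJ h1 h2 ne) p
  have h7 := mul_le_mul_of_nonneg_left h4 p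
  have h8 := mul_le_mul_of_nonneg_left h5 hC
  linarith

omit hJ in
theorem sP_one (Q : Finset Site) (a : ℝ) (z : ℂ) :
    sP J Q (({z} : Finset ℂ).val.map (fl a)) = mag J Q (fl a z) := by
  unfold sP pl mag
  rw [gibbs_V0 J _ Vk]
  simp only [singleton_val, Multiset.map_singleton, Multiset.prod_singleton]
  rfl

omit hJ in
theorem sP_two (Q : Finset Site) (a : ℝ) {z y : ℂ} (h : z ≠ y) :
    sP J Q (({z, y} : Finset ℂ).val.map (fl a)) = two J Q (fl a z) (fl a y) := by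
  unfold sP pl two
  rw [gibbs_V0 J _ Vk, insert_val_of_notMem (by simpa using h)]
  simp only [singleton_val, Multiset.map_cons, Multiset.map_singleton, Multiset.prod_cons,
    Multiset.prod_singleton]
  rfl

theorem Mn_eq (hP : FamB D P) : ∀ᶠ a in 𝓝[>] (0 : ℝ), ∀ X : Finset ℂ,
    Mn (fun a => Vx (P a)) a X = sP J (P a) (X.val.map (fl a)) := by
  filter_upwards [hP.1.2] with a h X
  rw [← kw J hJ _ h, MM, (blk _ (hP.2.1 a)).1, (blk _ (hP.2.1 a)).1]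
  rfl

omit hJ in
/-- One spin. -/
theorem one : SOne := by
  intro J hJ D P ho hD hP hr hn z hz
  obtain ⟨A, hA0, hA⟩ := Dg_asymp
  obtain ⟨ρ, hρ, hg⟩ := geo ho hD hz
  obtain ⟨C, hC⟩ := trunc hJ hP.1.1 (half_pos hρ)
  set u : ℝ → ℝ := GP J P {z} with hu
  have u1 : ∀ a, u a = a ^ (-(1 / 8) : ℝ) * mag J (P a) (fl a z) := fun a => by
    rw [hu, GP, sP_one, card_singleton]
    norm_num
  have pw : ∀ a : ℝ, 0 < a → a ^ (-(1 / 4) : ℝ) = (a ^ (-(1 / 8) : ℝ)) ^ 2 := fun a ha => by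
    rw [sq, ← Real.rpow_add ha]; norm_num
  have key : ∀ B : ℝ, ∃ (r G : ℝ → ℝ) (r₀ g : ℝ), 0 < r₀ ∧ 0 < g ∧
      Tendsto r (𝓝[>] 0) (𝓝 r₀) ∧ Tendsto G (𝓝[>] 0) (𝓝 g) ∧ ∀ᶠ a in 𝓝[>] (0 : ℝ),
        0 < r a ∧ 0 < u a ∧ u a ^ 2 * r a ≤ G a ∧ G a ≤ u a ^ 2 * r a + C ∧
          B ^ 2 ≤ (u a * r a) ^ 2 := by
    intro B
    obtain ⟨t, t1, t0, t2⟩ := (((tendsto_rpow_neg_nhdsGT_zero (y := -(1 / 4)) (by norm_num)
      ).eventually_ge_atTop (2 * B ^ 2 / A)).and (Ioo_mem_nhdsGT hρ)).exists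
    obtain ⟨y, hy, y1, y2⟩ := hg (t / 7) (by positivity)
    have y3 : z.re + z.im + ρ / 2 ≤ y.re + y.im := by linarith
    have ne : z ≠ y := fun c => by rw [c] at y3; linarith
    obtain ⟨r₀, r0, h1⟩ := hr {y} {z} (by simpa using hy) (by simpa using hz) rfl
    obtain ⟨g, g0, h2⟩ := hn {z, y} (by simp [hz, hy]) (by rw [card_pair ne]; exact even_two)
    refine ⟨_, _, r₀, g, r0, g0, h1, h2, ?_⟩
    filter_upwards [Mn_eq hJ hP, hC z hz y hy y3, big hJ hP.1.1 hA0 hA hy (by positivity) y2,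
      self_mem_nhdsWithin] with a e1 e2 e3 ha
    have ha : 0 < a := ha
    have p1 : 0 < Mn (fun a => Vx (P a)) a {z} := H436.MM_pos _ _
    have p2 : 0 < Mn (fun a => Vx (P a)) a {y} := H436.MM_pos _ _
    have e4 : Gn (fun a => Vx (P a)) {z, y} a =
        a ^ (-(1 / 4) : ℝ) * two J (P a) (fl a z) (fl a y) := by
      rw [Gn, e1, sP_two _ _ ne, card_pair ne]
      norm_num
    have e5 := mul_le_mul_of_nonneg_left (mag_mul hJ (P a) (fl a z) (fl a y))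
      (show 0 ≤ a ^ (-(1 / 4) : ℝ) by positivity)
    rw [e1, sP_one] at p1 p2
    rw [show 7 * (t / 7) = t by ring] at e3
    rw [div_le_iff₀ hA0] at t1
    rw [e4, e1, e1, sP_one, sP_one, u1]
    have p3 : 0 < a ^ (-(1 / 8) : ℝ) := by positivity
    have f1 : (a ^ (-(1 / 8) : ℝ) * mag J (P a) (fl a z)) ^ 2 *
        (mag J (P a) (fl a y) / mag J (P a) (fl a z)) =
        a ^ (-(1 / 4) : ℝ) * (mag J (P a) (fl a z) * mag J (P a) (fl a y)) := by
      rw [pw a ha]; field_simp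
    have f2 : (a ^ (-(1 / 8) : ℝ) * mag J (P a) (fl a z) *
        (mag J (P a) (fl a y) / mag J (P a) (fl a z))) ^ 2 =
        a ^ (-(1 / 4) : ℝ) * mag J (P a) (fl a y) ^ 2 := by
      rw [pw a ha]; field_simp
    rw [f1, f2]
    exact ⟨by positivity, by positivity, e5, e2, by linarith⟩
  obtain ⟨r, G, r₀, g, r0, g0, h1, h2, h3⟩ := key 1
  have low : ∀ᶠ a in 𝓝[>] (0 : ℝ), 1 / (2 * r₀) ≤ u a := by
    filter_upwards [h3, h1.eventually_lt_const (show r₀ < 2 * r₀ by linarith)] with a e e'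
    have := abs_le_of_sq_le_sq' e.2.2.2.2 (mul_pos e.2.1 e.1).le
    rw [div_le_iff₀ (by positivity)]
    nlinarith [e.2.1, this.2]
  obtain ⟨g', g0', hl⟩ := H436.lim_of_factor (l := 𝓝[>] 0) (G := fun a => u a ^ 2)
    (C := g / r₀ + 1) (by
      filter_upwards [h3, (h2.div h1 r0.ne').eventually_lt_const (lt_add_one _)] with a e e'
      exact ((le_div_iff₀ e.1).2 e.2.2.1).trans e'.le) fun ε hε => by
    obtain ⟨r', G', r₁, g₁, r1, g1, k1, k2, k3⟩ := key (2 * r₀ * |C| / ε)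
    refine ⟨fun a => G' a / r' a / (1 + ε), g₁ / r₁ / (1 + ε), by positivity,
      (k2.div k1 r1.ne').div_const _, ?_⟩
    filter_upwards [k3, low] with a e e'
    obtain ⟨e1, e2, e3, e4, e5⟩ := e
    have e6 := (abs_le_of_sq_le_sq' e5 (mul_pos e2 e1).le).2
    rw [div_le_iff₀ hε] at e6
    rw [div_le_iff₀ (by positivity)] at e'
    constructor
    · rw [div_le_iff₀ (by positivity), div_le_iff₀ e1]
      have e7 : |C| ≤ ε * (u a ^ 2 * r' a) := by
        have e8 := mul_le_mul_of_nonneg_left e6 e2.le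
        have e9 := mul_le_mul_of_nonneg_right e' (abs_nonneg C)
        nlinarith
      linarith [le_abs_self C]
    · rw [mul_div_cancel₀ _ (by positivity), le_div_iff₀ e1]
      exact e3
  refine ⟨√g', Real.sqrt_pos.2 g0', hl.sqrt.congr' ?_⟩
  filter_upwards [h3] with a e
  exact Real.sqrt_sq e.2.1.le

end Vale.Agent.P144S.K
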